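import Vale.Agent.P147W36.Walk

open MeasureTheory Vale.Agent.P147W36

/-- **The directional zero-one law** for random walk in an iid elliptic environment, for the
objects of the problem.
(1) The quenched law exists and is unique; the event of escape is measurable.
(2) The quenched law is measurable in the environment, the annealed law is a probability measure
and the mean of the quenched laws; it is the law of the path of every walk in an iid environment,
on any probability space, and such a walk exists.
(3) The zero-one law, for the annealed law and for every walk. -/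
theorem Vale.Agent.Results.P147.AMarkovChain.result (d : ℕ) (μ : Measure (Row d))
    [IsProbabilityMeasure μ] :
    (∀ (ω : Env d) (x : Site d), ∃! P, IsQuenched ω x P) ∧
    (∀ l : EuclideanSpace ℝ (Fin d), MeasurableSet (Escape l)) ∧
    (∀ (x : Site d) (P : Env d → Measure (Paths d)), (∀ ω, IsQuenched ω x (P ω)) →
      Measurable P ∧ IsProbabilityMeasure (annealed μ P) ∧
      (∀ B, MeasurableSet B → annealed μ P B = ∫⁻ ω, P ω B ∂envLaw μ) ∧
      (∃ Pr : Measure (Env d × Paths d), IsWalk Pr μ x Prod.fst Prod.snd) ∧
      ∀ (Ω : Type*) [MeasurableSpace Ω] (Pr : Measure Ω) (W : Ω → Env d) (X : Ω → Paths d),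
        IsWalk Pr μ x W X → Pr.map X = annealed μ P) ∧
    (2 ≤ d → Elliptic μ → ∀ l : EuclideanSpace ℝ (Fin d),
      (∀ P : Env d → Measure (Paths d), (∀ ω, IsQuenched ω 0 (P ω)) →
        annealed μ P (Escape l) = 0 ∨ annealed μ P (Escape l) = 1) ∧
      ∀ (Ω : Type*) [MeasurableSpace Ω] (Pr : Measure Ω) (W : Ω → Env d) (X : Ω → Paths d),
        IsWalk Pr μ 0 W X → Pr {a | X a ∈ Escape l} = 0 ∨ Pr {a | X a ∈ Escape l} = 1) := by
  refine ⟨existsUnique_quenched, measurableSet_escape, fun x P hP => ?_, fun hd hμ l =>
    ⟨fun P hP => ?_, fun Ω _ Pr W X h => ?_⟩⟩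
  · obtain rfl : P = Q x := funext fun ω => (hP ω).eq_Q
    exact ⟨measurable_Q x, isProb_annealed μ x, fun _ hB => annealed_apply μ x hB,
      exists_walk μ x, fun _ _ _ _ _ h => h.map_eq⟩
  · obtain rfl : P = Q 0 := funext fun ω => (hP ω).eq_Q
    exact zero_one μ hd hμ l
  · have h1 := zero_one μ hd hμ l
    rwa [← h.map_eq, Measure.map_apply h.2.2.1 (measurableSet_escape l)] at h1
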